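import Mathlib

/-!
Counting core for the polycyclic theorem of P216: for an automorphism of a nonzero lattice
of integer vectors and a bound `c` there are a modulus `M` and a period `L` such that the
automorphism has period `L` modulo `M` and any `c` two-sided orbits miss a residue class.
-/

namespace Vale.Agent.Lib.P216.H60.Poly

open Matrix

variable {j : Type*} [Fintype j] [DecidableEq j]

/-- If `X = 1 + 2 C` then `X ^ (2 ^ e) = 1 + 2 ^ (e + 1) D` for some `D`. -/
theorem pow_two_pow_eq (X C : Matrix j j ℤ) (hX : X = 1 + (2 : ℤ) • C) (e : ℕ) :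
    ∃ D : Matrix j j ℤ, X ^ (2 ^ e) = 1 + ((2 : ℤ) ^ (e + 1)) • D := by
  induction e with
  | zero => exact ⟨C, by simpa using hX⟩
  | succ e ih =>
    obtain ⟨D, hD⟩ := ih
    refine ⟨D + ((2 : ℤ) ^ e) • (D * D), ?_⟩
    rw [pow_succ 2 e, pow_mul, hD, sq]
    simp only [add_mul, mul_add, one_mul, mul_one, smul_mul_assoc, mul_smul_comm, smul_add,
      smul_smul]
    module

/-- Some positive power of an invertible integer matrix is congruent to one modulo two. -/
theorem exists_pow_eq_one_add_two (A B : Matrix j j ℤ) (hAB : A * B = 1) :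
    ∃ m : ℕ, 0 < m ∧ ∃ C : Matrix j j ℤ, A ^ m = 1 + (2 : ℤ) • C := by
  have hBA : B * A = 1 := by rwa [mul_eq_one_comm] at hAB
  let φ₂ : Matrix j j ℤ →+* Matrix j j (ZMod 2) := (Int.castRingHom (ZMod 2)).mapMatrix
  let u : (Matrix j j ℤ)ˣ := ⟨A, B, hAB, hBA⟩
  let v : (Matrix j j (ZMod 2))ˣ := Units.map φ₂.toMonoidHom u
  have hv : (v ^ orderOf v : (Matrix j j (ZMod 2))ˣ) = 1 := pow_orderOf_eq_one v
  have hm : φ₂ (A ^ orderOf v) = 1 := by
    have h1 := congrArg Units.val hv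
    rw [Units.val_pow_eq_pow_val, Units.val_one] at h1
    rw [map_pow]
    exact h1
  refine ⟨orderOf v, orderOf_pos v, ?_⟩
  have hdiv : ∀ i k, (2 : ℤ) ∣ (A ^ orderOf v - 1) i k := by
    intro i k
    have h0 : φ₂ (A ^ orderOf v - 1) = 0 := by rw [map_sub, hm, map_one, sub_self]
    have h1 := congrFun (congrFun h0 i) k
    have h2 : (((A ^ orderOf v - 1) i k : ℤ) : ZMod 2) = 0 := by
      simpa [φ₂] using h1
    exact_mod_cast (ZMod.intCast_zmod_eq_zero_iff_dvd _ 2).1 h2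
  refine ⟨Matrix.of fun i k => (A ^ orderOf v - 1) i k / 2, ?_⟩
  ext i k
  have h3 := Int.mul_ediv_cancel' (hdiv i k)
  simp only [Matrix.sub_apply] at h3
  simp only [Matrix.add_apply, Matrix.smul_apply, Matrix.of_apply, Matrix.sub_apply,
    smul_eq_mul]
  linarith

/-- Counting: if `A` has period `L` modulo `M` and `c * L` is less than the number of residue
classes, then `A ^ L` is the identity modulo `M` and any `c` two-sided orbits miss a class. -/
theorem count_core {M L : ℕ} [NeZero M] (hL : 0 < L) (A B : Matrix j j ℤ) (hAB : A * B = 1)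
    (hφ : ((Int.castRingHom (ZMod M)).mapMatrix A) ^ L = 1) (c : ℕ)
    (hc : c * L < M ^ Fintype.card j) :
    (∀ v : j → ℤ, ∀ i, (M : ℤ) ∣ ((A ^ L) *ᵥ v) i - v i) ∧
    ∀ W : Finset (j → ℤ), W.card ≤ c → ∃ ξ : j → ℤ, ∀ w ∈ W, ∀ k : ℕ,
      ¬ (∀ i, (M : ℤ) ∣ w i - ((A ^ k) *ᵥ ξ) i) ∧
      ¬ (∀ i, (M : ℤ) ∣ w i - ((B ^ k) *ᵥ ξ) i) := by
  have hBA : B * A = 1 := by rwa [mul_eq_one_comm] at hAB
  set φ : Matrix j j ℤ →+* Matrix j j (ZMod M) := (Int.castRingHom (ZMod M)).mapMatrix with hφdef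
  let ρ : (j → ℤ) → (j → ZMod M) := fun x => ⇑(Int.castRingHom (ZMod M)) ∘ x
  have hρ : ∀ (X : Matrix j j ℤ) (x : j → ℤ), ρ (X *ᵥ x) = (φ X) *ᵥ (ρ x) := by
    intro X x
    funext i
    exact RingHom.map_mulVec (Int.castRingHom (ZMod M)) X x i
  have hcong : ∀ v w : j → ℤ, (∀ i, (M : ℤ) ∣ v i - w i) ↔ ρ w = ρ v := by
    intro v w
    constructor
    · intro h
      funext i
      exact (ZMod.intCast_eq_intCast_iff_dvd_sub (w i) (v i) M).2 (h i)
    · intro h i
      exact (ZMod.intCast_eq_intCast_iff_dvd_sub (w i) (v i) M).1 (congrFun h i)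
  have hφB : φ B = φ A ^ (L - 1) := by
    have h1 : φ B * φ A = 1 := by rw [← map_mul, hBA, map_one]
    calc φ B = φ B * φ A ^ L := by rw [hφ, mul_one]
      _ = φ B * (φ A * φ A ^ (L - 1)) := by
          rw [← pow_succ', Nat.sub_add_cancel hL]
      _ = φ A ^ (L - 1) := by rw [← mul_assoc, h1, one_mul]
  have hLk : ∀ k : ℕ, φ A ^ ((L - 1) * k) * φ A ^ k = 1 := by
    intro k
    rw [← pow_add]
    have : (L - 1) * k + k = L * k := by
      have := Nat.sub_add_cancel hL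
      nlinarith
    rw [this, pow_mul, hφ, one_pow]
  refine ⟨?_, ?_⟩
  · intro v
    rw [hcong]
    rw [hρ, map_pow, hφ, one_mulVec]
  · intro W hW
    let S : Finset (j → ZMod M) :=
      ((Finset.range L) ×ˢ W).image (fun x => (φ A ^ x.1) *ᵥ ρ x.2)
    have hS : S.card ≤ c * L := by
      refine le_trans Finset.card_image_le ?_
      rw [Finset.card_product, Finset.card_range, mul_comm]
      exact Nat.mul_le_mul_right L hW
    have hSmem : ∀ w ∈ W, ∀ k : ℕ, (φ A ^ k) *ᵥ ρ w ∈ S := by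
      intro w hw k
      refine Finset.mem_image.2 ⟨(k % L, w), ?_, ?_⟩
      · exact Finset.mem_product.2 ⟨Finset.mem_range.2 (Nat.mod_lt _ hL), hw⟩
      · show (φ A ^ (k % L)) *ᵥ ρ w = (φ A ^ k) *ᵥ ρ w
        rw [pow_eq_pow_mod k hφ]
    have hcard : Fintype.card (j → ZMod M) = M ^ Fintype.card j := by
      rw [Fintype.card_fun, ZMod.card]
    obtain ⟨ξ', hξ'⟩ : ∃ ξ' : j → ZMod M, ξ' ∉ S := by
      by_contra hcon
      have hall : ∀ ξ' : j → ZMod M, ξ' ∈ S := by
        intro ξ'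
        by_contra h
        exact hcon ⟨ξ', h⟩
      have h1 : S = Finset.univ := Finset.eq_univ_iff_forall.2 hall
      have h2 : S.card = M ^ Fintype.card j := by rw [h1, Finset.card_univ, hcard]
      omega
    refine ⟨fun i => ((ξ' i).cast : ℤ), ?_⟩
    have hξ : ρ (fun i => ((ξ' i).cast : ℤ)) = ξ' := by
      funext i
      exact ZMod.intCast_zmod_cast (ξ' i)
    intro w hw k
    constructor
    · intro h
      rw [hcong, hρ, hξ, map_pow] at h
      apply hξ'
      have h2 : ξ' = (φ A ^ ((L - 1) * k)) *ᵥ ρ w := by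
        rw [← h, Matrix.mulVec_mulVec, hLk k, one_mulVec]
      rw [h2]
      exact hSmem w hw _
    · intro h
      rw [hcong, hρ, hξ, map_pow, hφB, ← pow_mul] at h
      apply hξ'
      have h2 : ξ' = (φ A ^ k) *ᵥ ρ w := by
        rw [← h, Matrix.mulVec_mulVec, pow_mul_comm, hLk k, one_mulVec]
      rw [h2]
      exact hSmem w hw _

/-- Matrix form: a modulus and a period for an invertible integer matrix of positive size. -/
theorem exists_modulus_matrix [Nonempty j] (A B : Matrix j j ℤ) (hAB : A * B = 1) (c : ℕ) :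
    ∃ M L : ℕ, 0 < L ∧ (∀ v : j → ℤ, ∀ i, (M : ℤ) ∣ ((A ^ L) *ᵥ v) i - v i) ∧
      ∀ W : Finset (j → ℤ), W.card ≤ c → ∃ ξ : j → ℤ, ∀ w ∈ W, ∀ k : ℕ,
        ¬ (∀ i, (M : ℤ) ∣ w i - ((A ^ k) *ᵥ ξ) i) ∧
        ¬ (∀ i, (M : ℤ) ∣ w i - ((B ^ k) *ᵥ ξ) i) := by
  by_cases h1 : Fintype.card j = 1
  · obtain ⟨x, hx⟩ := Fintype.card_eq_one_iff.1 h1
    have hab : A x x * B x x = 1 := by
      have h := congrFun (congrFun hAB x) x
      rw [Matrix.mul_apply, Matrix.one_apply_eq,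
        Finset.sum_eq_single x (fun b _ hb => absurd (hx b) hb)
          (fun h => absurd (Finset.mem_univ x) h)] at h
      exact h
    have ha : A x x = 1 ∨ A x x = -1 := Int.isUnit_iff.1 (IsUnit.of_mul_eq_one _ hab)
    have hA2 : A ^ 2 = 1 := by
      ext i k
      rw [hx i, hx k, sq, Matrix.mul_apply, Matrix.one_apply_eq,
        Finset.sum_eq_single x (fun b _ hb => absurd (hx b) hb)
          (fun h => absurd (Finset.mem_univ x) h)]
      rcases ha with h | h <;> rw [h] <;> norm_num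
    have : NeZero (2 * c + 1) := ⟨by omega⟩
    refine ⟨2 * c + 1, 2, by norm_num, ?_⟩
    exact count_core (M := 2 * c + 1) (L := 2) (by norm_num) A B hAB
      (by rw [← map_pow, hA2, map_one]) c (by rw [h1, pow_one]; omega)
  · have h2 : 2 ≤ Fintype.card j := by
      have := Fintype.card_pos (α := j)
      omega
    obtain ⟨m, hm0, C, hC⟩ := exists_pow_eq_one_add_two A B hAB
    set e : ℕ := c * m with he
    obtain ⟨D, hD⟩ := pow_two_pow_eq (A ^ m) C hC e
    have : NeZero (2 ^ (e + 1)) := ⟨by positivity⟩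
    have hLpos : 0 < m * 2 ^ e := Nat.mul_pos hm0 (by positivity)
    refine ⟨2 ^ (e + 1), m * 2 ^ e, hLpos, ?_⟩
    have hφL : ((Int.castRingHom (ZMod (2 ^ (e + 1)))).mapMatrix A) ^ (m * 2 ^ e) = 1 := by
      have h1 : (Int.castRingHom (ZMod (2 ^ (e + 1)))).mapMatrix ((A ^ m) ^ (2 ^ e)) = 1 := by
        rw [hD, map_add, map_one]
        have h2 : (Int.castRingHom (ZMod (2 ^ (e + 1)))).mapMatrix (((2 : ℤ) ^ (e + 1)) • D)
            = 0 := by
          ext i k
          have h3 : ((2 : ZMod (2 ^ (e + 1))) ^ (e + 1)) = 0 := by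
            have := ZMod.natCast_self (2 ^ (e + 1))
            push_cast at this
            exact this
          have h4 : ((Int.castRingHom (ZMod (2 ^ (e + 1)))).mapMatrix
              (((2 : ℤ) ^ (e + 1)) • D)) i k
              = ((((2 : ℤ) ^ (e + 1)) * D i k : ℤ) : ZMod (2 ^ (e + 1))) := rfl
          rw [h4, Matrix.zero_apply]
          push_cast
          rw [h3, zero_mul]
        rw [h2, add_zero]
      rw [← pow_mul, map_pow] at h1
      exact h1
    refine count_core hLpos A B hAB hφL c ?_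
    have h5 : e < 2 ^ e := Nat.lt_two_pow_self
    have h6 : (2 ^ (e + 1)) ^ 2 ≤ (2 ^ (e + 1)) ^ Fintype.card j :=
      Nat.pow_le_pow_right (by positivity) h2
    have h7 : c * (m * 2 ^ e) = e * 2 ^ e := by rw [he]; ring
    have h8 : e * 2 ^ e < (2 ^ (e + 1)) ^ 2 := by
      have h9 : (2 ^ (e + 1)) ^ 2 = 4 * (2 ^ e * 2 ^ e) := by ring
      rw [h9]
      have h10 : e * 2 ^ e < 2 ^ e * 2 ^ e := Nat.mul_lt_mul_of_pos_right h5 (by positivity)
      omega
    omega

/-- Automorphism form of the counting core. -/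
theorem exists_modulus [Nonempty j] (f : (j → ℤ) ≃+ (j → ℤ)) (c : ℕ) :
    ∃ M L : ℕ, 0 < L ∧ (∀ v : j → ℤ, ∀ i, (M : ℤ) ∣ ((⇑f)^[L] v) i - v i) ∧
      ∀ W : Finset (j → ℤ), W.card ≤ c → ∃ ξ : j → ℤ, ∀ w ∈ W, ∀ k : ℕ,
        ¬ (∀ i, (M : ℤ) ∣ w i - ((⇑f)^[k] ξ) i) ∧
        ¬ (∀ i, (M : ℤ) ∣ w i - ((⇑f.symm)^[k] ξ) i) := by
  let g : (j → ℤ) →ₗ[ℤ] (j → ℤ) := f.toAddMonoidHom.toIntLinearMap
  let g' : (j → ℤ) →ₗ[ℤ] (j → ℤ) := f.symm.toAddMonoidHom.toIntLinearMap
  have hgg' : g ∘ₗ g' = LinearMap.id := by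
    ext x i
    simp [g, g']
  have hAB : LinearMap.toMatrix' g * LinearMap.toMatrix' g' = 1 := by
    rw [← LinearMap.toMatrix'_comp, hgg', LinearMap.toMatrix'_id]
  have hiter : ∀ (h : (j → ℤ) →ₗ[ℤ] (j → ℤ)) (k : ℕ)
      (w : j → ℤ), (LinearMap.toMatrix' h ^ k) *ᵥ w = (⇑h)^[k] w := by
    intro h k w
    induction k with
    | zero => simp
    | succ k ih =>
      rw [pow_succ', ← Matrix.mulVec_mulVec, ih, Function.iterate_succ_apply']
      have := LinearMap.congr_fun (Matrix.toLin'_toMatrix' h) ((⇑h)^[k] w)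
      rw [Matrix.toLin'_apply] at this
      exact this
  obtain ⟨M, L, hL, h1, h2⟩ := exists_modulus_matrix (LinearMap.toMatrix' g)
    (LinearMap.toMatrix' g') hAB c
  refine ⟨M, L, hL, ?_, ?_⟩
  · intro v i
    have := h1 v i
    rw [hiter g L v] at this
    exact this
  · intro W hW
    obtain ⟨ξ, hξ⟩ := h2 W hW
    refine ⟨ξ, ?_⟩
    intro w hw k
    have h3 := hξ w hw k
    rw [hiter g k ξ, hiter g' k ξ] at h3
    exact h3

end Vale.Agent.Lib.P216.H60.Poly
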