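import Vale.Agent.Lib.P216.Basic
import Vale.Agent.Lib.P216.helper60.Modulus

/-!
Group-level step for the polycyclic theorem of P216: a group that is a finite union of
conjugates of cyclic subgroups cannot be `N⟨t⟩` with `t` of infinite order modulo the normal
subgroup `N` when `N` maps onto a nonzero lattice of integer vectors with kernel the elements
of finite order.
-/

namespace Vale.Agent.Lib.P216.H60.Poly

open Multiplicative

theorem no_lattice_quotient {H : Type*} [Group H] (hH : CyclicallyCovered H)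
    (N : Subgroup H) [N.Normal] (t : H) (ht : ∀ h : H, ∃ k : ℤ, h * t ^ k ∈ N)
    (hinf : ∀ k : ℤ, t ^ k ∈ N → k = 0)
    {j : Type*} [Fintype j] [Nonempty j]
    (π : N →* Multiplicative (j → ℤ)) (hπ : Function.Surjective π)
    (hker : ∀ x : N, π x = 1 ↔ IsOfFinOrder x) : False := by
  classical
  obtain ⟨S, hS⟩ := hH
  let σ : N ≃* N := MulAut.conjNormal t
  -- the induced automorphism of the lattice
  have hkσ : π.ker ≤ (π.comp σ.toMonoidHom).ker := by
    intro x hx
    rw [MonoidHom.mem_ker] at hx ⊢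
    rw [MonoidHom.comp_apply]
    exact (hker _).2
      ((Function.Injective.isOfFinOrder_iff (f := σ.toMonoidHom) σ.injective).2 ((hker x).1 hx))
  have hkσ' : π.ker ≤ (π.comp σ.symm.toMonoidHom).ker := by
    intro x hx
    rw [MonoidHom.mem_ker] at hx ⊢
    rw [MonoidHom.comp_apply]
    exact (hker _).2
      ((Function.Injective.isOfFinOrder_iff (f := σ.symm.toMonoidHom) σ.symm.injective).2
        ((hker x).1 hx))
  let F : Multiplicative (j → ℤ) →* Multiplicative (j → ℤ) :=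
    π.liftOfSurjective hπ ⟨π.comp σ.toMonoidHom, hkσ⟩
  let F' : Multiplicative (j → ℤ) →* Multiplicative (j → ℤ) :=
    π.liftOfSurjective hπ ⟨π.comp σ.symm.toMonoidHom, hkσ'⟩
  have hF : ∀ x : N, F (π x) = π (σ x) := fun x =>
    MonoidHom.liftOfRightInverse_comp_apply _ _ _ ⟨π.comp σ.toMonoidHom, hkσ⟩ x
  have hF' : ∀ x : N, F' (π x) = π (σ.symm x) := fun x =>
    MonoidHom.liftOfRightInverse_comp_apply _ _ _ ⟨π.comp σ.symm.toMonoidHom, hkσ'⟩ x
  have h1 : F'.comp F = MonoidHom.id _ := by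
    apply MonoidHom.ext
    intro v
    obtain ⟨x, rfl⟩ := hπ v
    rw [MonoidHom.comp_apply, hF, hF', MulEquiv.symm_apply_apply]
    rfl
  have h2 : F.comp F' = MonoidHom.id _ := by
    apply MonoidHom.ext
    intro v
    obtain ⟨x, rfl⟩ := hπ v
    rw [MonoidHom.comp_apply, hF', hF, MulEquiv.apply_symm_apply]
    rfl
  let f : (j → ℤ) ≃+ (j → ℤ) := AddEquiv.toMultiplicative.symm (F.toMulEquiv F' h1 h2)
  have hf : ∀ a : N, f (toAdd (π a)) = toAdd (π (σ a)) := by
    intro a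
    have := hF a
    exact congrArg toAdd this
  have hfs : ∀ a : N, f.symm (toAdd (π a)) = toAdd (π (σ.symm a)) := by
    intro a
    rw [AddEquiv.symm_apply_eq, hf, MulEquiv.apply_symm_apply]
  have hit : ∀ (k : ℕ) (a : N), (⇑f)^[k] (toAdd (π a)) = toAdd (π ((⇑σ)^[k] a)) := by
    intro k a
    induction k with
    | zero => rfl
    | succ k ih => rw [Function.iterate_succ_apply', Function.iterate_succ_apply', ih, hf]
  have hits : ∀ (k : ℕ) (a : N),
      (⇑f.symm)^[k] (toAdd (π a)) = toAdd (π ((⇑σ.symm)^[k] a)) := by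
    intro k a
    induction k with
    | zero => rfl
    | succ k ih => rw [Function.iterate_succ_apply', Function.iterate_succ_apply', ih, hfs]
  have hσ : ∀ (k : ℕ) (a : N), (((⇑σ)^[k] a : N) : H) = t ^ k * (a : H) * (t⁻¹) ^ k := by
    intro k a
    induction k with
    | zero => simp
    | succ k ih =>
      rw [Function.iterate_succ_apply']
      have h1 : ((σ ((⇑σ)^[k] a) : N) : H) = t * (((⇑σ)^[k] a : N) : H) * t⁻¹ :=
        MulAut.conjNormal_apply t _
      rw [h1, ih, pow_succ', pow_succ]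
      group
  have hσs : ∀ (k : ℕ) (a : N),
      (((⇑σ.symm)^[k] a : N) : H) = (t⁻¹) ^ k * (a : H) * t ^ k := by
    intro k a
    induction k with
    | zero => simp
    | succ k ih =>
      rw [Function.iterate_succ_apply']
      have h1 : ((σ.symm ((⇑σ.symm)^[k] a) : N) : H) = t⁻¹ * (((⇑σ.symm)^[k] a : N) : H) * t :=
        MulAut.conjNormal_symm_apply t _
      rw [h1, ih, pow_succ', pow_succ]
      group
  -- modulus and period
  obtain ⟨M, L, hL, hper, hmiss⟩ := exists_modulus f S.card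
  -- the representatives of the coset `N * t ^ L`
  let P : H → Prop := fun s => ∃ m : ℤ, s ^ m * (t ^ L)⁻¹ ∈ N
  let p : H → (j → ℤ) := fun s =>
    if h : P s then toAdd (π ⟨_, h.choose_spec⟩) else 0
  have huniq : ∀ (s : H) (m m' : ℤ), s ^ m * (t ^ L)⁻¹ ∈ N → s ^ m' * (t ^ L)⁻¹ ∈ N →
      m = m' := by
    intro s m m' hm hm'
    let q : H →* H ⧸ N := QuotientGroup.mk' N
    have hq1 : q s ^ m = q t ^ L := by
      have h := (QuotientGroup.eq_one_iff (N := N) _).2 hm
      have h' : q (s ^ m * (t ^ L)⁻¹) = 1 := h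
      rw [map_mul, map_inv, map_zpow, map_pow, mul_inv_eq_one] at h'
      exact h'
    have hq2 : q s ^ m' = q t ^ L := by
      have h := (QuotientGroup.eq_one_iff (N := N) _).2 hm'
      have h' : q (s ^ m' * (t ^ L)⁻¹) = 1 := h
      rw [map_mul, map_inv, map_zpow, map_pow, mul_inv_eq_one] at h'
      exact h'
    have hq3 : q s ^ (m - m') = 1 := by
      rw [zpow_sub, hq1, hq2, mul_inv_cancel]
    have hq4 : q t ^ ((L : ℤ) * (m - m')) = 1 := by
      rw [zpow_mul, zpow_natCast, ← hq1, ← zpow_mul, mul_comm, zpow_mul, hq3, one_zpow]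
    have hq5 : t ^ ((L : ℤ) * (m - m')) ∈ N := by
      have h : q (t ^ ((L : ℤ) * (m - m'))) = 1 := by rw [map_zpow, hq4]
      exact (QuotientGroup.eq_one_iff (N := N) _).1 h
    have hq6 := hinf _ hq5
    have hL' : (L : ℤ) ≠ 0 := by exact_mod_cast hL.ne'
    have hq7 : m - m' = 0 := by
      rcases mul_eq_zero.1 hq6 with h | h
      · exact absurd h hL'
      · exact h
    omega
  let W : Finset (j → ℤ) := S.image p
  have hWcard : W.card ≤ S.card := Finset.card_image_le
  obtain ⟨ξ, hξ⟩ := hmiss W hWcard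
  obtain ⟨x, hx⟩ := hπ (ofAdd ξ)
  have hex : toAdd (π x) = ξ := by rw [hx]; rfl
  obtain ⟨s, hs, m, hconj⟩ := hS ((x : H) * t ^ L)
  obtain ⟨c, hc⟩ := isConj_iff.1 hconj
  obtain ⟨k, hk⟩ := ht c
  -- the three factors
  obtain ⟨y, hy⟩ : ∃ y : N, (y : H) = c * t ^ k := ⟨⟨_, hk⟩, rfl⟩
  have hz1 : t ^ (-k) * (x : H) * t ^ k ∈ N := by
    have h0 := Subgroup.Normal.conj_mem (inferInstance : N.Normal) _ x.2 (t ^ (-k))
    rw [zpow_neg, inv_inv] at h0
    rw [zpow_neg]
    exact h0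
  have hz2 : t ^ L * (y : H)⁻¹ * (t ^ L)⁻¹ ∈ N := by
    have h0 := Subgroup.Normal.conj_mem (inferInstance : N.Normal) _ (y⁻¹).2 (t ^ L)
    rw [Subgroup.coe_inv] at h0
    exact h0
  obtain ⟨z1, hz1e⟩ : ∃ z : N, (z : H) = t ^ (-k) * (x : H) * t ^ k := ⟨⟨_, hz1⟩, rfl⟩
  obtain ⟨z2, hz2e⟩ : ∃ z : N, (z : H) = t ^ L * (y : H)⁻¹ * (t ^ L)⁻¹ := ⟨⟨_, hz2⟩, rfl⟩
  have hprod : s ^ m * (t ^ L)⁻¹ = ((y * z1 * z2 : N) : H) := by
    rw [← hc]
    simp only [Subgroup.coe_mul, hy, hz1e, hz2e]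
    group
  have hPs : P s := ⟨m, by rw [hprod]; exact SetLike.coe_mem _⟩
  have hps : p s = toAdd (π (y * z1 * z2)) := by
    have hm : hPs.choose = m :=
      huniq s _ _ hPs.choose_spec (by rw [hprod]; exact SetLike.coe_mem _)
    show (if h : P s then toAdd (π ⟨_, h.choose_spec⟩) else 0) = _
    rw [dif_pos hPs]
    congr 2
    apply Subtype.ext
    show s ^ hPs.choose * (t ^ L)⁻¹ = _
    rw [hm, hprod]
  have hpW : p s ∈ W := Finset.mem_image_of_mem p hs
  -- value of the third factor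
  have hz2val : toAdd (π z2) = - (⇑f)^[L] (toAdd (π y)) := by
    have h3 : z2 = ((⇑σ)^[L] y)⁻¹ := by
      apply Subtype.ext
      rw [hz2e, Subgroup.coe_inv, hσ]
      group
    rw [h3, map_inv, toAdd_inv, hit]
  have hsum : p s = toAdd (π y) + toAdd (π z1) - (⇑f)^[L] (toAdd (π y)) := by
    rw [hps, π.map_mul, π.map_mul, toAdd_mul, toAdd_mul, hz2val]
    abel
  have hdvd : ∀ i, (M : ℤ) ∣ (p s) i - (toAdd (π z1)) i := by
    intro i
    have h4 := hper (toAdd (π y)) i
    rw [hsum]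
    simp only [Pi.add_apply, Pi.sub_apply]
    have h5 : toAdd (π y) i + toAdd (π z1) i - (⇑f)^[L] (toAdd (π y)) i - toAdd (π z1) i
        = - ((⇑f)^[L] (toAdd (π y)) i - toAdd (π y) i) := by ring
    rw [h5]
    exact (dvd_neg).2 h4
  obtain ⟨k', rfl | rfl⟩ := Int.eq_nat_or_neg k
  · have h3 : z1 = (⇑σ.symm)^[k'] x := by
      apply Subtype.ext
      rw [hz1e, hσs, zpow_neg, zpow_natCast, inv_pow]
    have h4 : toAdd (π z1) = (⇑f.symm)^[k'] ξ := by
      rw [h3, ← hits, hex]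
    rw [h4] at hdvd
    exact (hξ _ hpW k').2 hdvd
  · have h3 : z1 = (⇑σ)^[k'] x := by
      apply Subtype.ext
      rw [hz1e, hσ, neg_neg, zpow_neg, zpow_natCast, inv_pow]
    have h4 : toAdd (π z1) = (⇑f)^[k'] ξ := by
      rw [h3, ← hit, hex]
    rw [h4] at hdvd
    exact (hξ _ hpW k').1 hdvd

end Vale.Agent.Lib.P216.H60.Poly
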