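import Vale.Agent.Lib.P216.helper60.Step

/-!
The polycyclic theorem for P216: a virtually polycyclic group that is a finite union of
conjugates of cyclic subgroups has a cyclic subgroup of finite index.
-/

namespace Vale.Agent.Lib.P216.H60.Poly

universe u

theorem fg_map {G G' : Type*} [Group G] [Group G'] (f : G →* G') {K : Subgroup G}
    (h : K.FG) : (K.map f).FG := by
  classical
  obtain ⟨S, hS⟩ := h
  exact ⟨S.image f, by rw [Finset.coe_image, ← MonoidHom.map_closure, hS]⟩

/-- Induction on the derived length. -/
theorem polycyclic_aux : ∀ (d : ℕ) (G : Type u) [Group G], derivedSeries G d = ⊥ →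
    (∀ K : Subgroup G, K.FG) → CyclicallyCovered G →
    ∃ g : G, (Subgroup.zpowers g).FiniteIndex := by
  intro d
  induction d with
  | zero =>
    intro G _ hd _ _
    rw [derivedSeries_zero] at hd
    have hsub : Subsingleton G := by
      refine ⟨fun a b => ?_⟩
      have ha : a ∈ (⊥ : Subgroup G) := by rw [← hd]; exact Subgroup.mem_top a
      have hb : b ∈ (⊥ : Subgroup G) := by rw [← hd]; exact Subgroup.mem_top b
      rw [Subgroup.mem_bot] at ha hb
      rw [ha, hb]
    exact ⟨1, inferInstance⟩
  | succ d ih =>
    intro G _ hd hfg hG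
    have hAn : (derivedSeries G d).Normal := derivedSeries_normal G d
    have hAcomm : ∀ a ∈ derivedSeries G d, ∀ b ∈ derivedSeries G d, a * b = b * a := by
      intro a ha b hb
      have h1 : a * b * a⁻¹ * b⁻¹ ∈ derivedSeries G (d + 1) :=
        Subgroup.commutator_mem_commutator ha hb
      rw [hd, Subgroup.mem_bot] at h1
      exact mul_inv_eq_iff_eq_mul.1 (mul_inv_eq_one.1 h1)
    have hQd : derivedSeries (G ⧸ derivedSeries G d) d = ⊥ := by
      rw [← map_derivedSeries_eq (QuotientGroup.mk'_surjective (derivedSeries G d)) d]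
      exact QuotientGroup.map_mk'_self _
    have hQfg : ∀ K : Subgroup (G ⧸ derivedSeries G d), K.FG := by
      intro K
      have h1 := fg_map (QuotientGroup.mk' (derivedSeries G d))
        (hfg (K.comap (QuotientGroup.mk' (derivedSeries G d))))
      rwa [Subgroup.map_comap_eq_self_of_surjective
        (QuotientGroup.mk'_surjective (derivedSeries G d))] at h1
    have hQ : CyclicallyCovered (G ⧸ derivedSeries G d) :=
      hG.of_surjective (QuotientGroup.mk' (derivedSeries G d))
        (QuotientGroup.mk'_surjective (derivedSeries G d))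
    obtain ⟨qb, hqb⟩ := ih (G ⧸ derivedSeries G d) hQd hQfg hQ
    obtain ⟨t, rfl⟩ := QuotientGroup.mk'_surjective (derivedSeries G d) qb
    let Hs : Subgroup G :=
      (Subgroup.zpowers (QuotientGroup.mk' (derivedSeries G d) t)).comap
        (QuotientGroup.mk' (derivedSeries G d))
    have hHs : Hs.FiniteIndex := ⟨by
      rw [Subgroup.index_comap_of_surjective _
        (QuotientGroup.mk'_surjective (derivedSeries G d))]
      exact hqb.index_ne_zero⟩
    have hAle : derivedSeries G d ≤ Hs := by
      intro a ha
      show QuotientGroup.mk' (derivedSeries G d) a ∈ Subgroup.zpowers _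
      have h1 : QuotientGroup.mk' (derivedSeries G d) a = 1 :=
        (QuotientGroup.eq_one_iff a).2 ha
      rw [h1]
      exact one_mem _
    have htH : t ∈ Hs := Subgroup.mem_zpowers _
    have hcommN : ∀ a b : (derivedSeries G d).subgroupOf Hs, a * b = b * a := by
      intro a b
      apply Subtype.ext
      apply Subtype.ext
      exact hAcomm _ a.2 _ b.2
    have hfgN : Group.FG ((derivedSeries G d).subgroupOf Hs) := by
      have h1 : Group.FG (derivedSeries G d) :=
        (Group.fg_iff_subgroup_fg _).2 (hfg (derivedSeries G d))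
      exact Group.fg_of_surjective
        (f := (Subgroup.subgroupOfEquivOfLe hAle).symm.toMonoidHom)
        (Subgroup.subgroupOfEquivOfLe hAle).symm.surjective
    have htN : ∀ h : Hs, ∃ k : ℤ,
        h * (⟨t, htH⟩ : Hs) ^ k ∈ (derivedSeries G d).subgroupOf Hs := by
      intro h
      obtain ⟨k, hk⟩ := Subgroup.mem_zpowers_iff.1 h.2
      refine ⟨-k, ?_⟩
      rw [Subgroup.mem_subgroupOf]
      have h1 : ((h * (⟨t, htH⟩ : Hs) ^ (-k) : Hs) : G) = (h : G) * t ^ (-k) := by
        simp
      rw [h1, ← QuotientGroup.eq_one_iff]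
      have h2 : ((((h : G) * t ^ (-k) : G)) : G ⧸ derivedSeries G d)
          = QuotientGroup.mk' (derivedSeries G d) (h : G)
            * (QuotientGroup.mk' (derivedSeries G d) t) ^ (-k) := rfl
      rw [h2, ← hk, zpow_neg, mul_inv_cancel]
    obtain ⟨g, hg⟩ := virtuallyCyclic_step (H := Hs) (hG.subgroup_of_finiteIndex Hs)
      ((derivedSeries G d).subgroupOf Hs) hcommN hfgN ⟨t, htH⟩ htN
    exact ⟨(g : G), finiteIndex_zpowers_of_map Hs g hg⟩

/-- A virtually polycyclic group (a group with a finite-index solvable subgroup all of whose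
subgroups are finitely generated) that is a finite union of conjugates of cyclic subgroups
has a cyclic subgroup of finite index. -/
theorem virtuallyCyclic_of_virtuallyPolycyclic {G : Type u} [Group G]
    (hG : CyclicallyCovered G) (H : Subgroup G) [H.FiniteIndex] [Group.IsSolvable H]
    (hH : ∀ K : Subgroup H, K.FG) : ∃ g : G, (Subgroup.zpowers g).FiniteIndex := by
  obtain ⟨d, hd⟩ := Group.IsSolvable.solvable (G := H)
  obtain ⟨g, hg⟩ := polycyclic_aux d H hd hH (hG.subgroup_of_finiteIndex H)
  exact ⟨(g : G), finiteIndex_zpowers_of_map H g hg⟩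

end Vale.Agent.Lib.P216.H60.Poly
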