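import Mathlib

/-!
Counting core for P216 (torus bundle groups): finitely many orbits of an
automorphism of the lattice of integer vectors of length at least two never
contain every primitive vector.  Proof by counting residues modulo a power of two.
-/

namespace Vale.Agent.Lib.P216.H60

open Matrix

/-- If `X = 1 + 2 C` then `X ^ (2 ^ e) = 1 + 2 ^ (e + 1) D` for some `D`. -/
theorem pow_two_pow_eq {N : ℕ} (X C : Matrix (Fin N) (Fin N) ℤ)
    (hX : X = 1 + (2 : ℤ) • C) (e : ℕ) :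
    ∃ D : Matrix (Fin N) (Fin N) ℤ, X ^ (2 ^ e) = 1 + ((2 : ℤ) ^ (e + 1)) • D := by
  induction e with
  | zero => exact ⟨C, by simpa using hX⟩
  | succ e ih =>
    obtain ⟨D, hD⟩ := ih
    refine ⟨D + ((2 : ℤ) ^ e) • (D * D), ?_⟩
    rw [pow_succ 2 e, pow_mul, hD, sq]
    simp only [add_mul, mul_add, one_mul, mul_one, smul_mul_assoc, mul_smul_comm, smul_add,
      smul_smul]
    module

/-- Some positive power of an invertible integer matrix is congruent to one modulo two. -/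
theorem exists_pow_eq_one_add_two {N : ℕ} (A B : Matrix (Fin N) (Fin N) ℤ)
    (hAB : A * B = 1) :
    ∃ m : ℕ, 0 < m ∧ ∃ C : Matrix (Fin N) (Fin N) ℤ, A ^ m = 1 + (2 : ℤ) • C := by
  classical
  have hBA : B * A = 1 := by rwa [mul_eq_one_comm] at hAB
  let φ₂ : Matrix (Fin N) (Fin N) ℤ →+* Matrix (Fin N) (Fin N) (ZMod 2) :=
    (Int.castRingHom (ZMod 2)).mapMatrix
  let u : (Matrix (Fin N) (Fin N) ℤ)ˣ := ⟨A, B, hAB, hBA⟩
  let v : (Matrix (Fin N) (Fin N) (ZMod 2))ˣ := Units.map φ₂.toMonoidHom u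
  have hv : (v ^ orderOf v : (Matrix (Fin N) (Fin N) (ZMod 2))ˣ) = 1 := pow_orderOf_eq_one v
  have hm : φ₂ (A ^ orderOf v) = 1 := by
    have h1 := congrArg Units.val hv
    rw [Units.val_pow_eq_pow_val, Units.val_one] at h1
    rw [map_pow]
    exact h1
  refine ⟨orderOf v, orderOf_pos v, ?_⟩
  have hdiv : ∀ i j, (2 : ℤ) ∣ (A ^ orderOf v - 1) i j := by
    intro i j
    have h0 : φ₂ (A ^ orderOf v - 1) = 0 := by rw [map_sub, hm, map_one, sub_self]
    have h1 := congrFun (congrFun h0 i) j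
    have h2 : (((A ^ orderOf v - 1) i j : ℤ) : ZMod 2) = 0 := by
      simpa [φ₂] using h1
    exact_mod_cast (ZMod.intCast_zmod_eq_zero_iff_dvd _ 2).1 h2
  refine ⟨Matrix.of fun i j => (A ^ orderOf v - 1) i j / 2, ?_⟩
  ext i j
  have h3 := Int.mul_ediv_cancel' (hdiv i j)
  simp only [Matrix.sub_apply] at h3
  simp only [Matrix.add_apply, Matrix.smul_apply, Matrix.of_apply, Matrix.sub_apply,
    smul_eq_mul]
  linarith

/-- The test vectors `(2 a + 1, 1 + (2 a + 1) c, 0, ..., 0)`. -/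
def testVec (N : ℕ) (t : ℕ × ℕ) : Fin (N + 2) → ℤ := fun i =>
  if i = 0 then ((2 * t.1 + 1 : ℕ) : ℤ)
  else if i = 1 then ((1 + (2 * t.1 + 1) * t.2 : ℕ) : ℤ) else 0

theorem testVec_primitive (N : ℕ) (t : ℕ × ℕ) (d : ℤ)
    (hd : ∀ i, d ∣ testVec N t i) : IsUnit d := by
  have h0 := hd 0
  have h1 := hd 1
  have h01 : (1 : Fin (N + 2)) ≠ 0 := by
    intro h
    have := congrArg Fin.val h
    simp at this
  simp only [testVec, if_true] at h0
  simp only [testVec, h01, if_false, if_true] at h1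
  apply isUnit_of_dvd_one
  have h2 : d ∣ ((2 * t.1 + 1 : ℕ) : ℤ) * (t.2 : ℤ) := Dvd.dvd.mul_right h0 _
  have h3 : ((1 + (2 * t.1 + 1) * t.2 : ℕ) : ℤ) - ((2 * t.1 + 1 : ℕ) : ℤ) * (t.2 : ℤ) = 1 := by
    push_cast; ring
  rw [← h3]
  exact dvd_sub h1 h2

/-- The matrix form of the counting core. -/
theorem exists_primitive_matrix {N : ℕ} (A B : Matrix (Fin (N + 2)) (Fin (N + 2)) ℤ)
    (hAB : A * B = 1) (W : Finset (Fin (N + 2) → ℤ)) :
    ∃ ξ : Fin (N + 2) → ℤ, (∀ d : ℤ, (∀ i, d ∣ ξ i) → IsUnit d) ∧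
      ∀ w ∈ W, ∀ k : ℕ, (A ^ k) *ᵥ w ≠ ξ ∧ (B ^ k) *ᵥ w ≠ ξ := by
  classical
  have hBA : B * A = 1 := by rwa [mul_eq_one_comm] at hAB
  obtain ⟨m, hm0, C, hC⟩ := exists_pow_eq_one_add_two A B hAB
  set e : ℕ := m * W.card with he
  obtain ⟨D, hD⟩ := pow_two_pow_eq (A ^ m) C hC e
  set M : ℕ := 2 ^ (e + 1) with hM
  set L : ℕ := m * 2 ^ e with hL
  have hLpos : 0 < L := Nat.mul_pos hm0 (by positivity)
  have hMpos : 0 < M := by positivity
  let φ : Matrix (Fin (N + 2)) (Fin (N + 2)) ℤ →+* Matrix (Fin (N + 2)) (Fin (N + 2)) (ZMod M) :=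
    (Int.castRingHom (ZMod M)).mapMatrix
  let ρ : (Fin (N + 2) → ℤ) → (Fin (N + 2) → ZMod M) := fun x => ⇑(Int.castRingHom (ZMod M)) ∘ x
  have hρ : ∀ (X : Matrix (Fin (N + 2)) (Fin (N + 2)) ℤ) (x : Fin (N + 2) → ℤ),
      ρ (X *ᵥ x) = (φ X) *ᵥ (ρ x) := by
    intro X x
    funext i
    exact RingHom.map_mulVec (Int.castRingHom (ZMod M)) X x i
  -- the order of `A` modulo `M` divides `L`
  have hφL : φ A ^ L = 1 := by
    have h1 : φ ((A ^ m) ^ (2 ^ e)) = 1 := by
      rw [hD, map_add, map_one]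
      have h2 : φ (((2 : ℤ) ^ (e + 1)) • D) = 0 := by
        ext i j
        have h3 : ((2 : ZMod M) ^ (e + 1)) = 0 := by
          have := ZMod.natCast_self M
          rw [hM] at this
          push_cast at this
          rw [hM]
          exact this
        have h4 : (φ (((2 : ℤ) ^ (e + 1)) • D)) i j
            = ((((2 : ℤ) ^ (e + 1)) * D i j : ℤ) : ZMod M) := rfl
        rw [h4, Matrix.zero_apply]
        push_cast
        rw [h3, zero_mul]
      rw [h2, add_zero]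
    rw [← pow_mul, map_pow] at h1
    exact h1
  have hφB : φ B = φ A ^ (L - 1) := by
    have h1 : φ B * φ A = 1 := by rw [← map_mul, hBA, map_one]
    calc φ B = φ B * φ A ^ L := by rw [hφL, mul_one]
      _ = φ B * (φ A * φ A ^ (L - 1)) := by
          rw [← pow_succ', Nat.sub_add_cancel hLpos]
      _ = φ A ^ (L - 1) := by rw [← mul_assoc, h1, one_mul]
  -- the residues of the orbits
  let S : Finset (Fin (N + 2) → ZMod M) :=
    ((Finset.range L) ×ˢ W).image (fun x => (φ A ^ x.1) *ᵥ ρ x.2)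
  have hS : S.card ≤ L * W.card := by
    refine le_trans Finset.card_image_le ?_
    rw [Finset.card_product, Finset.card_range]
  have hSmem : ∀ w ∈ W, ∀ k : ℕ, (φ A ^ k) *ᵥ ρ w ∈ S := by
    intro w hw k
    refine Finset.mem_image.2 ⟨(k % L, w), ?_, ?_⟩
    · exact Finset.mem_product.2 ⟨Finset.mem_range.2 (Nat.mod_lt _ hLpos), hw⟩
    · show (φ A ^ (k % L)) *ᵥ ρ w = (φ A ^ k) *ᵥ ρ w
      rw [pow_eq_pow_mod k hφL]
  -- the test vectors
  let T : Finset (ℕ × ℕ) := (Finset.range (2 ^ e)) ×ˢ (Finset.range M)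
  have hT : T.card = 2 ^ e * M := by
    rw [Finset.card_product, Finset.card_range, Finset.card_range]
  have hinj : Set.InjOn (fun t => ρ (testVec N t)) (T : Set (ℕ × ℕ)) := by
    intro s hs t ht hst
    have hs' := Finset.mem_product.1 (Finset.mem_coe.1 hs)
    have ht' := Finset.mem_product.1 (Finset.mem_coe.1 ht)
    have hs1 := Finset.mem_range.1 hs'.1
    have hs2 := Finset.mem_range.1 hs'.2
    have ht1 := Finset.mem_range.1 ht'.1
    have ht2 := Finset.mem_range.1 ht'.2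
    have h01 : (1 : Fin (N + 2)) ≠ 0 := by
      intro h
      have := congrArg Fin.val h
      simp at this
    have e0 := congrFun hst 0
    have e1 := congrFun hst 1
    simp only [ρ, Function.comp_apply, testVec, if_true, Int.coe_castRingHom,
      Int.cast_natCast] at e0
    simp only [ρ, Function.comp_apply, testVec, h01, if_false, if_true, Int.coe_castRingHom,
      Int.cast_natCast] at e1
    rw [ZMod.natCast_eq_natCast_iff] at e0 e1
    have hM2 : M = 2 * 2 ^ e := by rw [hM, pow_succ]; ring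
    have a1 : 2 * s.1 + 1 < M := by omega
    have a2 : 2 * t.1 + 1 < M := by omega
    have a3 : 2 * s.1 + 1 = 2 * t.1 + 1 := Nat.ModEq.eq_of_lt_of_lt e0 a1 a2
    have a4 : s.1 = t.1 := by omega
    rw [a4] at e1
    have b1 : (2 * t.1 + 1) * s.2 ≡ (2 * t.1 + 1) * t.2 [MOD M] :=
      Nat.ModEq.add_left_cancel' 1 e1
    have hcop : Nat.Coprime M (2 * t.1 + 1) := by
      rw [hM]
      apply Nat.Coprime.pow_left
      rw [Nat.coprime_comm]
      simp
    have b2 : s.2 ≡ t.2 [MOD M] := Nat.ModEq.cancel_left_of_coprime hcop b1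
    have b3 : s.2 = t.2 := Nat.ModEq.eq_of_lt_of_lt b2 hs2 ht2
    exact Prod.ext a4 b3
  -- pigeonhole
  have hex : ∃ t ∈ T, ρ (testVec N t) ∉ S := by
    by_contra hcon
    have hcon' : ∀ t ∈ T, ρ (testVec N t) ∈ S := by
      intro t ht
      by_contra h
      exact hcon ⟨t, ht, h⟩
    have h1 : T.card ≤ S.card := Finset.card_le_card_of_injOn _ hcon' hinj
    have h2 : 2 ^ e * M ≤ L * W.card := by rw [← hT]; exact le_trans h1 hS
    have h3 : L * W.card = 2 ^ e * e := by rw [hL, he]; ring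
    rw [h3] at h2
    have h4 : M ≤ e := Nat.le_of_mul_le_mul_left h2 (by positivity)
    have h5 : e < 2 ^ e := Nat.lt_two_pow_self
    have h6 : 2 ^ e ≤ M := by rw [hM]; exact Nat.pow_le_pow_right (by norm_num) (Nat.le_succ e)
    omega
  obtain ⟨t, -, ht⟩ := hex
  refine ⟨testVec N t, testVec_primitive N t, ?_⟩
  intro w hw k
  constructor
  · intro h
    apply ht
    rw [← h, hρ, map_pow]
    exact hSmem w hw k
  · intro h
    apply ht
    rw [← h, hρ, map_pow, hφB, ← pow_mul]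
    exact hSmem w hw _

/-- The counting core for an additive automorphism of the lattice of integer vectors of
length at least two: finitely many two-sided orbits never contain every primitive vector. -/
theorem exists_primitive_not_mem_orbit {n : ℕ} (hn : 2 ≤ n)
    (f : (Fin n → ℤ) ≃+ (Fin n → ℤ)) (W : Finset (Fin n → ℤ)) :
    ∃ ξ : Fin n → ℤ, (∀ d : ℤ, (∀ i, d ∣ ξ i) → IsUnit d) ∧
      ∀ w ∈ W, ∀ k : ℕ, (⇑f)^[k] w ≠ ξ ∧ (⇑f.symm)^[k] w ≠ ξ := by
  obtain ⟨N, rfl⟩ : ∃ N, n = N + 2 := ⟨n - 2, by omega⟩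
  let g : (Fin (N + 2) → ℤ) →ₗ[ℤ] (Fin (N + 2) → ℤ) := f.toAddMonoidHom.toIntLinearMap
  let g' : (Fin (N + 2) → ℤ) →ₗ[ℤ] (Fin (N + 2) → ℤ) := f.symm.toAddMonoidHom.toIntLinearMap
  have hgg' : g ∘ₗ g' = LinearMap.id := by
    ext x i
    simp [g, g']
  have hAB : LinearMap.toMatrix' g * LinearMap.toMatrix' g' = 1 := by
    rw [← LinearMap.toMatrix'_comp, hgg', LinearMap.toMatrix'_id]
  have hiter : ∀ (h : (Fin (N + 2) → ℤ) →ₗ[ℤ] (Fin (N + 2) → ℤ)) (k : ℕ)
      (w : Fin (N + 2) → ℤ), (LinearMap.toMatrix' h ^ k) *ᵥ w = (⇑h)^[k] w := by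
    intro h k w
    induction k with
    | zero => simp
    | succ k ih =>
      rw [pow_succ', ← Matrix.mulVec_mulVec, ih, Function.iterate_succ_apply']
      have := LinearMap.congr_fun (Matrix.toLin'_toMatrix' h) ((⇑h)^[k] w)
      rw [Matrix.toLin'_apply] at this
      exact this
  obtain ⟨ξ, hξ, hW⟩ := exists_primitive_matrix (LinearMap.toMatrix' g)
    (LinearMap.toMatrix' g') hAB W
  refine ⟨ξ, hξ, ?_⟩
  intro w hw k
  have h1 := hW w hw k
  rw [hiter g k w, hiter g' k w] at h1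
  exact h1

end Vale.Agent.Lib.P216.H60
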