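import Vale.Agent.Lib.P216.helper60.CaseTwo

/-!
Inductive step for the polycyclic theorem of P216: a group that is a finite union of
conjugates of cyclic subgroups and is generated by a finitely generated abelian normal
subgroup `N` and one element `t` has a cyclic subgroup of finite index.
-/

namespace Vale.Agent.Lib.P216.H60.Poly

open Multiplicative

theorem finiteIndex_zpowers_of_map {H : Type*} [Group H] (K : Subgroup H) [K.FiniteIndex]
    (g : K) (hg : (Subgroup.zpowers g).FiniteIndex) :
    (Subgroup.zpowers (g : H)).FiniteIndex := by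
  have h1 : Subgroup.zpowers (g : H) = (Subgroup.zpowers g).map K.subtype := by
    rw [MonoidHom.map_zpowers]
    rfl
  rw [h1]
  exact ⟨by
    rw [Subgroup.index_map_subtype]
    exact mul_ne_zero hg.index_ne_zero Subgroup.FiniteIndex.index_ne_zero⟩

theorem virtuallyCyclic_step {H : Type*} [Group H] (hH : CyclicallyCovered H)
    (N : Subgroup H) [N.Normal] (hcomm : ∀ a b : N, a * b = b * a) (hfg : Group.FG N)
    (t : H) (ht : ∀ h : H, ∃ k : ℤ, h * t ^ k ∈ N) :
    ∃ g : H, (Subgroup.zpowers g).FiniteIndex := by
  classical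
  let instC : CommGroup N := { (inferInstance : Group N) with mul_comm := hcomm }
  by_cases hI : ∃ k : ℤ, k ≠ 0 ∧ t ^ k ∈ N
  · -- `N` has finite index
    obtain ⟨k, hk0, hk⟩ := hI
    have hKpos : 0 < k.natAbs := Int.natAbs_pos.2 hk0
    have hK : t ^ (k.natAbs : ℤ) ∈ N := by
      rcases Int.natAbs_eq k with h | h
      · rw [← h]; exact hk
      · have h' : (k.natAbs : ℤ) = -k := by omega
        rw [h', zpow_neg]
        exact inv_mem hk
    have hfinq : Finite (H ⧸ N) := by
      apply Finite.of_surjective
        (fun r : Fin k.natAbs => (QuotientGroup.mk (t ^ (-(r : ℕ) : ℤ)) : H ⧸ N))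
      intro q
      obtain ⟨h, rfl⟩ := QuotientGroup.mk_surjective q
      obtain ⟨i, hi⟩ := ht h
      have hKz : (0 : ℤ) < (k.natAbs : ℤ) := by exact_mod_cast hKpos
      have hr0 : 0 ≤ i % (k.natAbs : ℤ) := Int.emod_nonneg _ hKz.ne'
      have hr1 : i % (k.natAbs : ℤ) < (k.natAbs : ℤ) := Int.emod_lt_of_pos _ hKz
      have hmem : h * t ^ (i % (k.natAbs : ℤ)) ∈ N := by
        have h1 : i % (k.natAbs : ℤ) = i + (k.natAbs : ℤ) * (-(i / (k.natAbs : ℤ))) := by
          have := Int.emod_add_mul_ediv i (k.natAbs : ℤ)
          linarith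
        rw [h1, zpow_add, ← mul_assoc, zpow_mul]
        exact mul_mem hi (zpow_mem hK _)
      refine ⟨⟨(i % (k.natAbs : ℤ)).toNat, by omega⟩, ?_⟩
      show (QuotientGroup.mk (t ^ (-((i % (k.natAbs : ℤ)).toNat : ℕ) : ℤ)) : H ⧸ N)
        = QuotientGroup.mk h
      rw [QuotientGroup.eq]
      have h2 : (((i % (k.natAbs : ℤ)).toNat : ℕ) : ℤ) = i % (k.natAbs : ℤ) :=
        Int.toNat_of_nonneg hr0
      rw [h2, zpow_neg, inv_inv]
      have h3 := Subgroup.Normal.conj_mem (inferInstance : N.Normal) _ hmem
        (t ^ (i % (k.natAbs : ℤ)))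
      have h4 : t ^ (i % (k.natAbs : ℤ)) * (h * t ^ (i % (k.natAbs : ℤ)))
          * (t ^ (i % (k.natAbs : ℤ)))⁻¹ = t ^ (i % (k.natAbs : ℤ)) * h := by group
      rw [h4] at h3
      exact h3
    have hNfi : N.FiniteIndex := Subgroup.finiteIndex_of_finite_quotient
    have hNcov : CyclicallyCovered N := hH.subgroup_of_finiteIndex N
    obtain ⟨a, ha⟩ := exists_finiteIndex_zpowers_of_comm (A := N) hNcov
    exact ⟨(a : H), finiteIndex_zpowers_of_map N a ha⟩
  · -- `t` has infinite order modulo `N`
    have hinf : ∀ k : ℤ, t ^ k ∈ N → k = 0 := by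
      intro k hk
      by_contra hk0
      exact hI ⟨k, hk0, hk⟩
    have : Group.FG N := hfg
    obtain ⟨ι, j, _, _, p, hp, e, ⟨ε⟩⟩ := CommGroup.equiv_free_prod_prod_multiplicative_zmod N
    have : ∀ i, NeZero (p i ^ e i) := fun i => ⟨pow_ne_zero _ (hp i).ne_zero⟩
    by_cases hj : Nonempty j
    · exfalso
      let π : N →* Multiplicative (j → ℤ) :=
        (MulEquiv.piMultiplicative (fun _ : j => ℤ)).symm.toMonoidHom.comp
          ((MonoidHom.fst _ _).comp ε.toMonoidHom)
      have hπval : ∀ x : N, π x = (MulEquiv.piMultiplicative (fun _ : j => ℤ)).symm (ε x).1 :=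
        fun x => rfl
      have hπ : Function.Surjective π := by
        intro v
        refine ⟨ε.symm (MulEquiv.piMultiplicative (fun _ : j => ℤ) v, 1), ?_⟩
        rw [hπval, MulEquiv.apply_symm_apply, MulEquiv.symm_apply_apply]
      have hker : ∀ x : N, π x = 1 ↔ IsOfFinOrder x := by
        intro x
        rw [hπval, MulEquiv.map_eq_one_iff]
        constructor
        · intro h1
          obtain ⟨n, hn0, hn⟩ := (isOfFinOrder_of_finite (ε x).2).exists_pow_eq_one
          rw [← Function.Injective.isOfFinOrder_iff (f := ε.toMonoidHom) ε.injective]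
          refine isOfFinOrder_iff_pow_eq_one.2 ⟨n, hn0, ?_⟩
          show (ε x) ^ n = 1
          apply Prod.ext
          · rw [Prod.pow_fst, h1, one_pow]; rfl
          · rw [Prod.pow_snd, hn]; rfl
        · intro hx
          obtain ⟨n, hn0, hn⟩ := hx.exists_pow_eq_one
          have h1 : (ε x) ^ n = 1 := by rw [← map_pow, hn, map_one]
          have h2 : ((ε x).1) ^ n = 1 := by
            have := congrArg Prod.fst h1
            rw [Prod.pow_fst] at this
            exact this
          funext i
          have h3 : ((ε x).1 i) ^ n = 1 := by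
            have := congrFun h2 i
            rw [Pi.pow_apply] at this
            exact this
          have h4 : n • toAdd ((ε x).1 i) = 0 := by
            rw [← toAdd_pow, h3]; rfl
          have h5 : toAdd ((ε x).1 i) = 0 := by
            rcases smul_eq_zero.1 h4 with h | h
            · omega
            · exact h
          show (ε x).1 i = 1
          exact toAdd_eq_zero.1 h5
      exact no_lattice_quotient hH N t ht hinf π hπ hker
    · -- the free part is trivial: `N` is finite
      have : IsEmpty j := not_nonempty_iff.1 hj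
      have hNfin : Finite N := Finite.of_equiv _ ε.symm.toEquiv
      have hfinq : Finite (H ⧸ Subgroup.zpowers t) := by
        apply Finite.of_surjective
          (fun a : N => (QuotientGroup.mk (a : H) : H ⧸ Subgroup.zpowers t))
        intro q
        obtain ⟨h, rfl⟩ := QuotientGroup.mk_surjective q
        obtain ⟨k, hk⟩ := ht h
        refine ⟨⟨h * t ^ k, hk⟩, ?_⟩
        show (QuotientGroup.mk (h * t ^ k) : H ⧸ Subgroup.zpowers t) = QuotientGroup.mk h
        rw [QuotientGroup.eq]
        have h1 : (h * t ^ k)⁻¹ * h = t ^ (-k) := by group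
        rw [h1]
        exact zpow_mem (Subgroup.mem_zpowers t) _
      exact ⟨t, Subgroup.finiteIndex_of_finite_quotient⟩

end Vale.Agent.Lib.P216.H60.Poly
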