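import Vale.Agent.Lib.P216.Basic
import Vale.Agent.Lib.P216.helper60.PrimitiveOrbit

/-!
Group-level glue for P216 (torus bundle groups): a group that is a finite union of
conjugates of cyclic subgroups has no normal subgroup isomorphic to the lattice of
integer vectors of length `n ≥ 2` with cyclic quotient generated by one element.
-/

namespace Vale.Agent.Lib.P216.H60

open Multiplicative

theorem iterate_zsmul {n : ℕ} (g : (Fin n → ℤ) ≃+ (Fin n → ℤ)) (k : ℕ) (j : ℤ)
    (w : Fin n → ℤ) : (⇑g)^[k] (j • w) = j • (⇑g)^[k] w := by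
  induction k with
  | zero => rfl
  | succ k ih =>
    rw [Function.iterate_succ_apply', Function.iterate_succ_apply', ih, map_zsmul]

/-- A group `H` that is a finite union of conjugates of cyclic subgroups, with a normal
subgroup `N` isomorphic to the integer vectors of length `n` and an element `t` such that
every element of `H` lies in `N` after multiplication by a power of `t`: then `n ≤ 1`. -/
theorem rank_le_one_of_cyclicallyCovered {H : Type*} [Group H] (hH : CyclicallyCovered H)
    (N : Subgroup H) [N.Normal] (n : ℕ) (e : N ≃* Multiplicative (Fin n → ℤ)) (t : H)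
    (ht : ∀ h : H, ∃ k : ℤ, h * t ^ k ∈ N) : n ≤ 1 := by
  classical
  by_contra hn
  have hn2 : 2 ≤ n := by omega
  obtain ⟨S, hS⟩ := hH
  have hcomm : ∀ a b : N, a * b = b * a := by
    intro a b
    apply e.injective
    rw [map_mul, map_mul, mul_comm]
  choose v hv using fun s : H => exists_generator_of_zpow_mem N s
  let σ : N ≃* N := MulAut.conjNormal t
  let f : (Fin n → ℤ) ≃+ (Fin n → ℤ) :=
    AddEquiv.toMultiplicative.symm ((e.symm.trans σ).trans e)
  have hf : ∀ a : N, f (toAdd (e a)) = toAdd (e (σ a)) := by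
    intro a
    simp [f]
  have hfs : ∀ a : N, f.symm (toAdd (e a)) = toAdd (e (σ.symm a)) := by
    intro a
    rw [AddEquiv.symm_apply_eq, hf, MulEquiv.apply_symm_apply]
  have hit : ∀ (k : ℕ) (a : N), (⇑f)^[k] (toAdd (e a)) = toAdd (e ((⇑σ)^[k] a)) := by
    intro k a
    induction k with
    | zero => rfl
    | succ k ih => rw [Function.iterate_succ_apply', Function.iterate_succ_apply', ih, hf]
  have hits : ∀ (k : ℕ) (a : N),
      (⇑f.symm)^[k] (toAdd (e a)) = toAdd (e ((⇑σ.symm)^[k] a)) := by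
    intro k a
    induction k with
    | zero => rfl
    | succ k ih => rw [Function.iterate_succ_apply', Function.iterate_succ_apply', ih, hfs]
  have hσ : ∀ (k : ℕ) (a : N), (((⇑σ)^[k] a : N) : H) = t ^ k * (a : H) * (t⁻¹) ^ k := by
    intro k a
    induction k with
    | zero => simp
    | succ k ih =>
      rw [Function.iterate_succ_apply']
      have h1 : ((σ ((⇑σ)^[k] a) : N) : H) = t * (((⇑σ)^[k] a : N) : H) * t⁻¹ :=
        MulAut.conjNormal_apply t _
      rw [h1, ih, pow_succ', pow_succ]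
      group
  have hσs : ∀ (k : ℕ) (a : N),
      (((⇑σ.symm)^[k] a : N) : H) = (t⁻¹) ^ k * (a : H) * t ^ k := by
    intro k a
    induction k with
    | zero => simp
    | succ k ih =>
      rw [Function.iterate_succ_apply']
      have h1 : ((σ.symm ((⇑σ.symm)^[k] a) : N) : H) = t⁻¹ * (((⇑σ.symm)^[k] a : N) : H) * t :=
        MulAut.conjNormal_symm_apply t _
      rw [h1, ih, pow_succ', pow_succ]
      group
  let W : Finset (Fin n → ℤ) :=
    S.image (fun s => toAdd (e (v s))) ∪ S.image (fun s => - toAdd (e (v s)))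
  obtain ⟨ξ, hξ, hW⟩ := exists_primitive_not_mem_orbit hn2 f W
  set x : N := e.symm (ofAdd ξ) with hx
  have hex : toAdd (e x) = ξ := by simp [hx]
  obtain ⟨s, hs, m, hconj⟩ := hS (x : H)
  obtain ⟨c, hc⟩ := isConj_iff.1 hconj
  have hsm : s ^ m ∈ N := by
    rw [← hc]
    exact Subgroup.Normal.conj_mem inferInstance _ x.2 c
  obtain ⟨j, hj⟩ := hv s m hsm
  obtain ⟨k, hk⟩ := ht c⁻¹
  have hω1 : toAdd (e (v s)) ∈ W :=
    Finset.mem_union.2 (Or.inl (Finset.mem_image_of_mem _ hs))
  have hω2 : - toAdd (e (v s)) ∈ W :=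
    Finset.mem_union.2 (Or.inr (Finset.mem_image_of_mem _ hs))
  have hpow : toAdd (e (v s ^ j)) = j • toAdd (e (v s)) := by
    rw [map_zpow, toAdd_zpow]
  -- final contradiction from an orbit representation
  have fin : ∀ (g : (Fin n → ℤ) ≃+ (Fin n → ℤ)) (k' : ℕ),
      ξ = (⇑g)^[k'] (j • toAdd (e (v s))) →
      (⇑g)^[k'] (toAdd (e (v s))) = ξ ∨ (⇑g)^[k'] (- toAdd (e (v s))) = ξ := by
    intro g k' h
    rw [iterate_zsmul] at h
    have hdvd : ∀ i, j ∣ ξ i := by
      intro i
      rw [h]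
      exact ⟨_, rfl⟩
    rcases Int.isUnit_iff.1 (hξ j hdvd) with h1 | h1
    · left
      rw [h, h1, one_smul]
    · right
      have h2 := iterate_zsmul g k' (-1) (toAdd (e (v s)))
      rw [neg_one_zsmul, neg_one_zsmul] at h2
      rw [h2, h, h1, neg_one_zsmul]
  -- the conjugation formula for `x`
  have hxx : (x : H) = t ^ (-k) * ((v s ^ j : N) : H) * t ^ k := by
    have hz : t ^ (-k) * ((v s ^ j : N) : H) * t ^ k ∈ N := by
      have h0 := Subgroup.Normal.conj_mem (inferInstance : N.Normal) _ (v s ^ j).2 (t ^ (-k))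
      rw [zpow_neg, inv_inv] at h0
      rw [zpow_neg]
      exact h0
    have h1 : (x : H) = ((⟨c⁻¹ * t ^ k, hk⟩ * ⟨_, hz⟩ * (⟨c⁻¹ * t ^ k, hk⟩ : N)⁻¹ : N) : H) := by
      have hx1 : (x : H) = c⁻¹ * s ^ m * c := by rw [← hc]; group
      rw [hx1, hj]
      simp only [Subgroup.coe_mul, Subgroup.coe_inv]
      group
    have h2 : (⟨c⁻¹ * t ^ k, hk⟩ * ⟨_, hz⟩ * (⟨c⁻¹ * t ^ k, hk⟩ : N)⁻¹ : N) = ⟨_, hz⟩ := by
      rw [hcomm, inv_mul_cancel_left]
    rw [h1, h2]
  obtain ⟨k', rfl | rfl⟩ := Int.eq_nat_or_neg k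
  · -- `k ≥ 0`: the inverse automorphism
    have h3 : x = (⇑σ.symm)^[k'] (v s ^ j) := by
      apply Subtype.ext
      rw [hxx, hσs, zpow_neg, zpow_natCast, inv_pow]
    have h4 : ξ = (⇑f.symm)^[k'] (j • toAdd (e (v s))) := by
      rw [← hex, h3, ← hits, hpow]
    rcases fin f.symm k' h4 with h5 | h5
    · exact (hW _ hω1 k').2 h5
    · exact (hW _ hω2 k').2 h5
  · -- `k ≤ 0`: the automorphism itself
    have h3 : x = (⇑σ)^[k'] (v s ^ j) := by
      apply Subtype.ext
      rw [hxx, hσ, neg_neg, zpow_neg, zpow_natCast, inv_pow]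
    have h4 : ξ = (⇑f)^[k'] (j • toAdd (e (v s))) := by
      rw [← hex, h3, ← hit, hpow]
    rcases fin f k' h4 with h5 | h5
    · exact (hW _ hω1 k').1 h5
    · exact (hW _ hω2 k').1 h5

/-- The finite-index form: if `G` is a finite union of conjugates of cyclic subgroups, `H` has
finite index in `G`, `N` is a normal subgroup of `H` isomorphic to the integer vectors of
length `n`, and `H` is generated by `N` and one element `t`, then `n ≤ 1`. -/
theorem rank_le_one_of_finiteIndex {G : Type*} [Group G] (hG : CyclicallyCovered G)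
    (H : Subgroup G) [H.FiniteIndex] (N : Subgroup H) [N.Normal] (n : ℕ)
    (e : N ≃* Multiplicative (Fin n → ℤ)) (t : H) (ht : ∀ h : H, ∃ k : ℤ, h * t ^ k ∈ N) :
    n ≤ 1 :=
  rank_le_one_of_cyclicallyCovered (hG.subgroup_of_finiteIndex H) N n e t ht

end Vale.Agent.Lib.P216.H60
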